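import Vale.Agent.Lib.P052.Rows

/-!
Kernel computations about the 416-vertex graph stored in `row`.
Bit `j` of `row i` says that vertices `i` and `j` are adjacent.
The loops are written with recursors directly: this keeps the kernel reductions short.
-/

namespace Vale.Agent.Lib.P052

/-- test of bit `j` of `n` -/
def bit (n j : Nat) : Bool := Nat.beq (Nat.land (Nat.shiftRight n j) 1) 1

def adjB (i j : Nat) : Bool := bit (row i) j

noncomputable def allBelow (n : Nat) (p : Nat → Bool) : Bool :=
  Nat.rec true (fun m ih => Bool.rec false (p m) ih) n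

/-- one step of the top bit search -/
noncomputable def lgS (w : Nat) (k : Nat → Nat → Nat) (n acc : Nat) : Nat :=
  Bool.rec (k (Nat.shiftRight n w) (Nat.add acc w)) (k n acc) (Nat.beq (Nat.shiftRight n w) 0)

/-- a fast position of the top bit, for numbers below `2 ^ 512`; nothing is assumed about it below -/
noncomputable def lg (n : Nat) : Nat :=
  lgS 256 (lgS 128 (lgS 64 (lgS 32 (lgS 16 (lgS 8 (lgS 4 (lgS 2 (lgS 1 (fun _ acc => acc))))))))) n 0

/-- `pcEq fuel n c` checks that `n` has exactly `c` set bits, removing one set bit at each step. -/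
noncomputable def pcEq (fuel : Nat) : Nat → Nat → Bool :=
  Nat.rec (fun n c => Bool.rec false (Nat.beq c 0) (Nat.beq n 0))
    (fun _ ih n c =>
      Bool.rec
        (Bool.rec false
          (Bool.rec (ih (Nat.xor n (Nat.pow 2 (lg n))) (Nat.sub c 1)) false (Nat.beq c 0))
          (bit n (lg n)))
        (Nat.beq c 0) (Nat.beq n 0)) fuel

noncomputable def expected (i k : Nat) : Nat := Bool.rec (Bool.rec 20 36 (adjB i k)) 100 (Nat.beq i k)

/-- loop over the vertices of `cand`, removing one vertex each time -/
noncomputable def loopC (r : Nat → Bool) (fuel : Nat) : Nat → Bool :=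
  Nat.rec (fun cand => Nat.beq cand 0)
    (fun _ ih cand =>
      Bool.rec
        (Bool.rec false (ih (Nat.xor cand (Nat.pow 2 (lg cand))))
          (r (Nat.land (Nat.xor cand (Nat.pow 2 (lg cand))) (row (lg cand)))))
        true (Nat.beq cand 0)) fuel

/-- `noClique d cand` checks that there is no clique of `d + 1` vertices inside the bits of `cand`. -/
noncomputable def noClique (d : Nat) : Nat → Bool :=
  Nat.rec (fun cand => Nat.beq cand 0) (fun _ ih => loopC ih 101) d

/-- number of neighbours of `i` among `a, a+1, ..., a+m-1` -/
noncomputable def cnt (i a m : Nat) : Nat :=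
  Nat.rec 0 (fun t ih => Bool.rec ih (Nat.succ ih) (adjB i (Nat.add a t))) m

/-- indicator of the interval `a, ..., a+31` -/
noncomputable def ind (a k : Nat) : Nat :=
  Bool.rec 0 (Bool.rec 0 1 (Nat.blt k (Nat.add a 32))) (Nat.ble a k)

noncomputable def eigOK (k : Nat) : Bool :=
  Bool.rec false
    (Nat.beq (Nat.add (cnt k 320 32) (Nat.mul 20 (ind 352 k)))
      (Nat.add (cnt k 352 32) (Nat.mul 20 (ind 320 k))))
    (Nat.beq (Nat.add (cnt k 320 32) (Nat.mul 20 (ind 384 k)))
      (Nat.add (cnt k 384 32) (Nat.mul 20 (ind 320 k))))

/-- entry `j` of a permutation table -/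
def field (t j : Nat) : Nat := Nat.land (Nat.shiftRight t (Nat.mul 9 j)) 511

def ga (j : Nat) : Nat := field tabA j
def gb (j : Nat) : Nat := field tabB j
def gai (j : Nat) : Nat := field tabAi j
def gbi (j : Nat) : Nat := field tabBi j

noncomputable def beqB (a b : Bool) : Bool := Bool.rec (Bool.rec true false b) b a

/-- `g` preserves adjacency on the row of `i` -/
noncomputable def autRow (g : Nat → Nat) (i : Nat) : Bool :=
  allBelow 416 (fun j => beqB (adjB i j) (adjB (g i) (g j)))

/-- `g` and `h` are mutually inverse at `i` -/
noncomputable def invOK (g h : Nat → Nat) (i : Nat) : Bool :=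
  Bool.rec false
    (Bool.rec false
      (Bool.rec false (Nat.beq (g (h i)) i) (Nat.beq (h (g i)) i))
      (Nat.blt (h i) 416))
    (Nat.blt (g i) 416)

/-- the step towards vertex 0 -/
noncomputable def next (i : Nat) : Nat := Bool.rec (ga i) (gb i) (bit tabC i)

/-- iterating `next` from `i` reaches vertex 0 in at most `fuel` steps -/
noncomputable def reach (fuel : Nat) : Nat → Bool :=
  Nat.rec (fun i => Nat.beq i 0) (fun _ ih i => Bool.rec (ih (next i)) true (Nat.beq i 0)) fuel

theorem check_autA : allBelow 416 (autRow ga) = true := by decide +kernel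

theorem check_autB : allBelow 416 (autRow gb) = true := by decide +kernel

theorem check_invA : allBelow 416 (invOK ga gai) = true := by decide +kernel

theorem check_invB : allBelow 416 (invOK gb gbi) = true := by decide +kernel

theorem check_reach : allBelow 416 (fun i => Bool.rec false (reach 10 i) (Nat.blt (next i) 416)) = true := by
  decide +kernel

theorem check_sym0 : allBelow 416 (fun k => beqB (adjB 0 k) (adjB k 0)) = true := by decide +kernel

theorem check_irr0 : adjB 0 0 = false := by decide +kernel

theorem check_lt : allBelow 416 (fun i => Nat.blt (row i) (Nat.pow 2 416)) = true := by decide +kernel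

theorem check_cn0 :
    allBelow 416 (fun k => pcEq 101 (Nat.land (row 0) (row k)) (expected 0 k)) = true := by
  decide +kernel

theorem check_clique0 : noClique 4 (row 0) = true := by decide +kernel

theorem check_eig : allBelow 416 eigOK = true := by decide +kernel

end Vale.Agent.Lib.P052
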