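import Mathlib
import Vale.Agent.Lib.P052.Checks

/-!
Turning the kernel computations of `Checks` into ordinary statements about the graph.
The computations are made for vertex 0 only; two automorphisms spread them over all vertices.
-/

namespace Vale.Agent.Lib.P052

open Finset

set_option exponentiation.threshold 500

theorem bit_eq (n j : Nat) : bit n j = n.testBit j := by
  unfold bit
  rw [Nat.testBit]
  have h : (Nat.land (Nat.shiftRight n j) 1) = (n >>> j) % 2 := by
    change (n >>> j) &&& 1 = _
    exact Nat.and_one_is_mod _
  have h2 : 1 &&& (n >>> j) = (n >>> j) % 2 := Nat.one_and_eq_mod_two _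
  rw [h, h2]
  rcases Nat.mod_two_eq_zero_or_one (n >>> j) with h3 | h3 <;> rw [h3] <;> rfl

theorem allBelow_succ (n : Nat) (p : Nat → Bool) :
    allBelow (n + 1) p = Bool.rec false (p n) (allBelow n p) := rfl

theorem allBelow_spec {n : Nat} {p : Nat → Bool} (h : allBelow n p = true) :
    ∀ i, i < n → p i = true := by
  induction n with
  | zero => intro i hi; omega
  | succ n ih =>
    intro i hi
    rw [allBelow_succ] at h
    cases hb : allBelow n p with
    | false => rw [hb] at h; exact absurd h (by simp)
    | true =>
      rw [hb] at h
      rcases Nat.lt_succ_iff_lt_or_eq.mp hi with hi | rfl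
      · exact ih hb i hi
      · exact h

theorem pcEq_zero (n c : Nat) :
    pcEq 0 n c = Bool.rec false (Nat.beq c 0) (Nat.beq n 0) := rfl

theorem pcEq_succ (fuel n c : Nat) :
    pcEq (fuel + 1) n c = Bool.rec
        (Bool.rec false
          (Bool.rec (pcEq fuel (Nat.xor n (Nat.pow 2 (lg n))) (Nat.sub c 1)) false (Nat.beq c 0))
          (bit n (lg n)))
        (Nat.beq c 0) (Nat.beq n 0) := rfl

theorem sum_bits_zero (m : Nat) :
    ∑ j ∈ range m, (if (0 : Nat).testBit j = true then 1 else 0) = 0 := by
  simp

theorem beq_zero_true {n : Nat} (h : Nat.beq n 0 = true) : n = 0 := Nat.eq_of_beq_eq_true h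

theorem beq_zero_false {n : Nat} (h : Nat.beq n 0 = false) : n ≠ 0 := Nat.ne_of_beq_eq_false h

theorem pcEq_spec (m : Nat) : ∀ (fuel n c : Nat), pcEq fuel n c = true → n < 2 ^ m →
    ∑ j ∈ range m, (if n.testBit j = true then 1 else 0) = c := by
  intro fuel
  induction fuel with
  | zero =>
    intro n c h _
    rw [pcEq_zero] at h
    cases hn : Nat.beq n 0 with
    | false => rw [hn] at h; exact absurd h (by simp)
    | true =>
      rw [hn] at h
      have h1 := beq_zero_true hn
      have h2 := beq_zero_true h
      subst h1; subst h2
      exact sum_bits_zero m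
  | succ fuel ih =>
    intro n c h hn
    rw [pcEq_succ] at h
    cases hn0 : Nat.beq n 0 with
    | true =>
      rw [hn0] at h
      have h1 := beq_zero_true hn0
      have h2 := beq_zero_true h
      subst h1; subst h2
      exact sum_bits_zero m
    | false =>
      rw [hn0] at h
      cases hb : bit n (lg n) with
      | false => rw [hb] at h; exact absurd h (by simp)
      | true =>
        rw [hb] at h
        cases hc : Nat.beq c 0 with
        | true => rw [hc] at h; exact absurd h (by simp)
        | false =>
          rw [hc] at h
          have hc0 := beq_zero_false hc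
          have hbit : n.testBit (lg n) = true := by rw [← bit_eq]; exact hb
          have hvm : lg n < m := by
            by_contra hcon
            push Not at hcon
            have : n < 2 ^ (lg n) := lt_of_lt_of_le hn (Nat.pow_le_pow_right (by norm_num) hcon)
            have h0 := Nat.testBit_lt_two_pow this
            rw [hbit] at h0
            exact absurd h0 (by simp)
          have hxor : Nat.xor n (Nat.pow 2 (lg n)) = n ^^^ 2 ^ (lg n) := rfl
          have hlt : n ^^^ 2 ^ (lg n) < 2 ^ m :=
            Nat.xor_lt_two_pow hn (Nat.pow_lt_pow_right (by norm_num) hvm)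
          have key := ih _ _ h (by rw [hxor]; exact hlt)
          rw [hxor] at key
          have hsub : Nat.sub c 1 = c - 1 := rfl
          rw [hsub] at key
          have hmem : lg n ∈ range m := mem_range.mpr hvm
          rw [← Finset.add_sum_erase _ _ hmem, hbit]
          have hsplit := Finset.add_sum_erase (range m)
            (fun j => if (n ^^^ 2 ^ (lg n)).testBit j = true then 1 else 0) hmem
          have hv0 : (n ^^^ 2 ^ (lg n)).testBit (lg n) = false := by
            rw [Nat.testBit_xor, hbit, Nat.testBit_two_pow]
            simp
          rw [hv0] at hsplit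
          have heq : ∑ j ∈ (range m).erase (lg n), (if n.testBit j = true then 1 else 0)
              = ∑ j ∈ (range m).erase (lg n),
                  (if (n ^^^ 2 ^ (lg n)).testBit j = true then 1 else 0) := by
            apply Finset.sum_congr rfl
            intro j hj
            have hne : lg n ≠ j := (Finset.ne_of_mem_erase hj).symm
            rw [Nat.testBit_xor, Nat.testBit_two_pow]
            simp [hne]
          have hsplit' : ∑ j ∈ (range m).erase (lg n),
              (if (n ^^^ 2 ^ (lg n)).testBit j = true then 1 else 0)
              = ∑ j ∈ range m, (if (n ^^^ 2 ^ (lg n)).testBit j = true then 1 else 0) := by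
            simpa using hsplit
          rw [heq, hsplit', key]
          simp only [if_true]
          omega

theorem loopC_zero (r : Nat → Bool) (cand : Nat) : loopC r 0 cand = Nat.beq cand 0 := rfl

theorem loopC_succ (r : Nat → Bool) (fuel cand : Nat) :
    loopC r (fuel + 1) cand =
      Bool.rec
        (Bool.rec false (loopC r fuel (Nat.xor cand (Nat.pow 2 (lg cand))))
          (r (Nat.land (Nat.xor cand (Nat.pow 2 (lg cand))) (row (lg cand)))))
        true (Nat.beq cand 0) := rfl

theorem noClique_zero (cand : Nat) : noClique 0 cand = Nat.beq cand 0 := rfl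

theorem noClique_succ (d cand : Nat) : noClique (d + 1) cand = loopC (noClique d) 101 cand := rfl

/-- what `noClique` establishes -/
theorem noClique_spec (d : Nat) : ∀ cand, noClique d cand = true → ∀ S : Finset Nat,
    (∀ x ∈ S, cand.testBit x = true) →
    (∀ x ∈ S, ∀ y ∈ S, x ≠ y → (row x).testBit y = true) → S.card ≠ d + 1 := by
  induction d with
  | zero =>
    intro cand h S hS _ hc
    rw [noClique_zero] at h
    have h0 := beq_zero_true h
    subst h0
    obtain ⟨x, hx⟩ : S.Nonempty := by
      rw [← Finset.card_pos]; omega
    have := hS x hx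
    simp at this
  | succ d ih =>
    intro cand h S hS hadj hc
    rw [noClique_succ] at h
    have key : ∀ (fuel cand : Nat), loopC (noClique d) fuel cand = true → ∀ S : Finset Nat,
        (∀ x ∈ S, cand.testBit x = true) →
        (∀ x ∈ S, ∀ y ∈ S, x ≠ y → (row x).testBit y = true) → S.card ≠ d + 1 + 1 := by
      intro fuel
      induction fuel with
      | zero =>
        intro cand h S hS _ hc
        rw [loopC_zero] at h
        have h0 := beq_zero_true h
        subst h0
        obtain ⟨x, hx⟩ : S.Nonempty := by
          rw [← Finset.card_pos]; omega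
        have := hS x hx
        simp at this
      | succ fuel ihf =>
        intro cand h S hS hadj hc
        rw [loopC_succ] at h
        cases hc0 : Nat.beq cand 0 with
        | true =>
          have h0 := beq_zero_true hc0
          subst h0
          obtain ⟨x, hx⟩ : S.Nonempty := by
            rw [← Finset.card_pos]; omega
          have := hS x hx
          simp at this
        | false =>
          rw [hc0] at h
          cases hr : noClique d (Nat.land (Nat.xor cand (Nat.pow 2 (lg cand))) (row (lg cand))) with
          | false => rw [hr] at h; exact absurd h (by simp)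
          | true =>
            rw [hr] at h
            have hx : Nat.xor cand (Nat.pow 2 (lg cand)) = cand ^^^ 2 ^ (lg cand) := rfl
            have hl : Nat.land (cand ^^^ 2 ^ (lg cand)) (row (lg cand))
                = (cand ^^^ 2 ^ (lg cand)) &&& row (lg cand) := rfl
            rw [hx] at h hr
            rw [hl] at hr
            by_cases hvS : lg cand ∈ S
            · refine ih _ hr (S.erase (lg cand)) ?_ ?_ ?_
              · intro x hxS
                have hne : lg cand ≠ x := (Finset.ne_of_mem_erase hxS).symm
                have hxS' := Finset.mem_of_mem_erase hxS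
                rw [Nat.testBit_and, Nat.testBit_xor, Nat.testBit_two_pow, hS x hxS',
                  hadj _ hvS x hxS' hne]
                simp [hne]
              · intro x hx y hy hxy
                exact hadj x (Finset.mem_of_mem_erase hx) y (Finset.mem_of_mem_erase hy) hxy
              · rw [Finset.card_erase_of_mem hvS, hc]; rfl
            · refine ihf _ h S ?_ hadj hc
              intro x hxS
              have hne : lg cand ≠ x := fun h => hvS (h ▸ hxS)
              rw [Nat.testBit_xor, Nat.testBit_two_pow, hS x hxS]
              simp [hne]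
    exact key 101 cand h S hS hadj hc

/-- an adjacency preserving bijection of the 416 vertices, with inverse `h` -/
structure IsAut (g h : Nat → Nat) : Prop where
  map_lt : ∀ i, i < 416 → g i < 416
  inv_lt : ∀ i, i < 416 → h i < 416
  left : ∀ i, i < 416 → h (g i) = i
  right : ∀ i, i < 416 → g (h i) = i
  adj : ∀ i j, i < 416 → j < 416 → adjB i j = adjB (g i) (g j)

theorem beqB_spec {a b : Bool} (h : beqB a b = true) : a = b := by
  cases a <;> cases b <;> first | rfl | exact absurd h (by simp [beqB])

theorem blt_spec {a b : Nat} (h : Nat.blt a b = true) : a < b := Nat.le_of_ble_eq_true h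

theorem invOK_spec {g h : Nat → Nat} {i : Nat} (H : invOK g h i = true) :
    g i < 416 ∧ h i < 416 ∧ h (g i) = i ∧ g (h i) = i := by
  unfold invOK at H
  cases h1 : Nat.blt (g i) 416 with
  | false => rw [h1] at H; exact absurd H (by simp)
  | true =>
    rw [h1] at H
    cases h2 : Nat.blt (h i) 416 with
    | false => rw [h2] at H; exact absurd H (by simp)
    | true =>
      rw [h2] at H
      cases h3 : Nat.beq (h (g i)) i with
      | false => rw [h3] at H; exact absurd H (by simp)
      | true =>
        rw [h3] at H
        exact ⟨blt_spec h1, blt_spec h2, Nat.eq_of_beq_eq_true h3, Nat.eq_of_beq_eq_true H⟩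

theorem isAut_of {g h : Nat → Nat} (h1 : allBelow 416 (autRow g) = true)
    (h2 : allBelow 416 (invOK g h) = true) : IsAut g h where
  map_lt i hi := (invOK_spec (allBelow_spec h2 i hi)).1
  inv_lt i hi := (invOK_spec (allBelow_spec h2 i hi)).2.1
  left i hi := (invOK_spec (allBelow_spec h2 i hi)).2.2.1
  right i hi := (invOK_spec (allBelow_spec h2 i hi)).2.2.2
  adj i j hi hj := beqB_spec (allBelow_spec (allBelow_spec h1 i hi) j hj)

theorem isAut_a : IsAut ga gai := isAut_of check_autA check_invA

theorem isAut_b : IsAut gb gbi := isAut_of check_autB check_invB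

/-- what holds at vertex 0 and is invariant under the two automorphisms holds at every vertex -/
theorem spread (Q : Nat → Prop) (h0 : Q 0)
    (hstep : ∀ g h, IsAut g h → ∀ i, i < 416 → Q (g i) → Q i) : ∀ i, i < 416 → Q i := by
  have hnext : ∀ i, i < 416 → next i < 416 ∧ reach 10 i = true := by
    intro i hi
    have H := allBelow_spec check_reach i hi
    cases h1 : Nat.blt (next i) 416 with
    | false => rw [h1] at H; exact absurd H (by simp)
    | true =>
      rw [h1] at H
      exact ⟨blt_spec h1, H⟩
  have hQnext : ∀ i, i < 416 → Q (next i) → Q i := by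
    intro i hi hq
    unfold next at hq
    cases hb : bit tabC i with
    | false =>
      rw [hb] at hq
      exact hstep ga gai isAut_a i hi hq
    | true =>
      rw [hb] at hq
      exact hstep gb gbi isAut_b i hi hq
  have key : ∀ fuel i, i < 416 → reach fuel i = true → Q i := by
    intro fuel
    induction fuel with
    | zero =>
      intro i _ H
      have H' : Nat.beq i 0 = true := H
      rw [beq_zero_true H']
      exact h0
    | succ fuel ih =>
      intro i hi H
      have H' : reach (fuel + 1) i = Bool.rec (reach fuel (next i)) true (Nat.beq i 0) := rfl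
      rw [H'] at H
      cases hz : Nat.beq i 0 with
      | true =>
        rw [beq_zero_true hz]
        exact h0
      | false =>
        rw [hz] at H
        exact hQnext i hi (ih _ (hnext i hi).1 H)
  intro i hi
  exact key 10 i hi (hnext i hi).2

theorem row_lt {i : Nat} (hi : i < 416) : row i < 2 ^ 416 := blt_spec (allBelow_spec check_lt i hi)

theorem adj_irrefl {i : Nat} (hi : i < 416) : adjB i i = false := by
  refine spread (fun i => adjB i i = false) check_irr0 ?_ i hi
  intro g h hg i hi hq
  rw [hg.adj i i hi hi]
  exact hq

theorem adj_symm {i k : Nat} (hi : i < 416) (hk : k < 416) : adjB i k = adjB k i := by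
  refine spread (fun i => ∀ k, k < 416 → adjB i k = adjB k i) ?_ ?_ i hi k hk
  · intro k hk
    exact beqB_spec (allBelow_spec check_sym0 k hk)
  · intro g h hg i hi hq k hk
    rw [hg.adj i k hi hk, hg.adj k i hk hi]
    exact hq _ (hg.map_lt k hk)

theorem expected_aut {g h : Nat → Nat} (hg : IsAut g h) {i k : Nat} (hi : i < 416) (hk : k < 416) :
    expected (g i) (g k) = expected i k := by
  unfold expected
  rw [← hg.adj i k hi hk]
  by_cases hik : i = k
  · subst hik
    have h1 : Nat.beq (g i) (g i) = true := Nat.beq_refl _
    have h2 : Nat.beq i i = true := Nat.beq_refl _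
    rw [h1, h2]
  · have hgik : g i ≠ g k := fun e => hik (by rw [← hg.left i hi, e, hg.left k hk])
    have h1 : Nat.beq i k = false := by
      cases hb : Nat.beq i k with
      | false => rfl
      | true => exact absurd (Nat.eq_of_beq_eq_true hb) hik
    have h2 : Nat.beq (g i) (g k) = false := by
      cases hb : Nat.beq (g i) (g k) with
      | false => rfl
      | true => exact absurd (Nat.eq_of_beq_eq_true hb) hgik
    rw [h1, h2]

/-- the number of common neighbours -/
theorem common_nb {i k : Nat} (hi : i < 416) (hk : k < 416) :
    ∑ j ∈ range 416, (if adjB i j = true ∧ adjB k j = true then 1 else 0) = expected i k := by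
  refine spread (fun i => ∀ k, k < 416 →
      ∑ j ∈ range 416, (if adjB i j = true ∧ adjB k j = true then 1 else 0) = expected i k)
    ?_ ?_ i hi k hk
  · intro k hk
    have h := allBelow_spec check_cn0 k hk
    have hlt : (row 0 &&& row k) < 2 ^ 416 := Nat.and_lt_two_pow _ (row_lt hk)
    have := pcEq_spec 416 101 _ _ h hlt
    rw [← this]
    apply Finset.sum_congr rfl
    intro j _
    have e : (Nat.land (row 0) (row k)).testBit j = ((row 0).testBit j && (row k).testBit j) :=
      Nat.testBit_and _ _ _
    rw [e]
    simp only [adjB, bit_eq, Bool.and_eq_true]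
  · intro g h hg i hi hq k hk
    rw [← expected_aut hg hi hk, ← hq _ (hg.map_lt k hk)]
    refine Finset.sum_nbij' g h ?_ ?_ ?_ ?_ ?_
    · intro j hj
      exact mem_range.mpr (hg.map_lt j (mem_range.mp hj))
    · intro j hj
      exact mem_range.mpr (hg.inv_lt j (mem_range.mp hj))
    · intro j hj
      exact hg.left j (mem_range.mp hj)
    · intro j hj
      exact hg.right j (mem_range.mp hj)
    · intro j hj
      rw [hg.adj i j hi (mem_range.mp hj), hg.adj k j hk (mem_range.mp hj)]

/-- no six pairwise adjacent vertices -/
theorem no_six_clique (S : Finset Nat) (hS : ∀ x ∈ S, x < 416)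
    (hadj : ∀ x ∈ S, ∀ y ∈ S, x ≠ y → (row x).testBit y = true) : S.card ≠ 6 := by
  have hmain : ∀ i, i < 416 → ∀ S : Finset Nat, (∀ x ∈ S, x < 416) → i ∈ S →
      (∀ x ∈ S, ∀ y ∈ S, x ≠ y → (row x).testBit y = true) → S.card ≠ 6 := by
    refine spread _ ?_ ?_
    · intro S _ h0 hadj hc
      refine noClique_spec 4 _ check_clique0 (S.erase 0) ?_ ?_ ?_
      · intro x hx
        exact hadj 0 h0 x (Finset.mem_of_mem_erase hx) (Finset.ne_of_mem_erase hx).symm
      · intro x hx y hy hxy
        exact hadj x (Finset.mem_of_mem_erase hx) y (Finset.mem_of_mem_erase hy) hxy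
      · rw [Finset.card_erase_of_mem h0, hc]
    · intro g h hg i hi hq S hS hiS hadj hc
      have hinj : Set.InjOn g (S : Set Nat) := by
        intro a ha b hb e
        have ha' := hS a ha
        have hb' := hS b hb
        rw [← hg.left a ha', e, hg.left b hb']
      refine hq (S.image g) ?_ (Finset.mem_image_of_mem g hiS) ?_ ?_
      · intro x hx
        obtain ⟨a, ha, rfl⟩ := Finset.mem_image.mp hx
        exact hg.map_lt a (hS a ha)
      · intro x hx y hy hxy
        obtain ⟨a, ha, rfl⟩ := Finset.mem_image.mp hx
        obtain ⟨b, hb, rfl⟩ := Finset.mem_image.mp hy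
        have hab : a ≠ b := fun e => hxy (by rw [e])
        have h1 := hadj a ha b hb hab
        rw [← bit_eq] at h1 ⊢
        change adjB a b = true at h1
        change adjB (g a) (g b) = true
        rw [← hg.adj a b (hS a ha) (hS b hb)]
        exact h1
      · rw [Finset.card_image_of_injOn hinj, hc]
  intro hc
  have hne : S.Nonempty := by
    rw [← Finset.card_pos]; omega
  obtain ⟨x, hx⟩ := hne
  exact hmain x (hS x hx) S hS hx hadj hc

end Vale.Agent.Lib.P052
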