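import Mathlib
import Vale.Agent.Lib.P052.Spec

/-!
From the combinatorial checks to points in Euclidean space.
-/

namespace Vale.Agent.Lib.P052

open Finset Matrix Module

abbrev V := EuclideanSpace ℝ (Fin 416)

/-- adjacency with real values -/
noncomputable def α (i j : Fin 416) : ℝ := if adjB i j = true then 1 else 0

theorem α_symm (i j : Fin 416) : α i j = α j i := by
  unfold α
  rw [adj_symm i.2 j.2]

theorem α_self (i : Fin 416) : α i i = 0 := by
  unfold α
  rw [adj_irrefl i.2]
  simp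

theorem α_mul (i k l : Fin 416) :
    α i l * α k l = if adjB i l = true ∧ adjB k l = true then 1 else 0 := by
  unfold α
  by_cases h1 : adjB i l = true <;> by_cases h2 : adjB k l = true <;> simp [h1, h2]

theorem expected_cast (i k : Fin 416) :
    ((expected i k : ℕ) : ℝ) = (if i = k then 80 else 0) + 16 * α i k + 20 := by
  unfold expected α
  by_cases hik : i = k
  · subst hik
    rw [adj_irrefl i.2]
    have : Nat.beq (i : ℕ) i = true := Nat.beq_refl _
    rw [this]
    simp
    norm_num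
  · have hne : (i : ℕ) ≠ k := fun h => hik (Fin.ext h)
    have h2 : Nat.beq (i : ℕ) k = false := by
      cases hb : Nat.beq (i : ℕ) k with
      | false => rfl
      | true => exact absurd (Nat.eq_of_beq_eq_true hb) hne
    rw [h2]
    cases h3 : adjB i k <;> simp [hik]
    norm_num

theorem sum_mul (i k : Fin 416) :
    ∑ l, α i l * α l k = (if i = k then 80 else 0) + 16 * α i k + 20 := by
  have h := common_nb i.2 k.2
  rw [← expected_cast, ← h, Finset.sum_range]
  push_cast
  apply Finset.sum_congr rfl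
  intro l _
  rw [α_symm l k, α_mul]

theorem α_sq (i l : Fin 416) : α i l * α i l = α i l := by
  unfold α
  by_cases h : adjB i l = true <;> simp [h]

theorem sum_row (i : Fin 416) : ∑ l, α i l = 100 := by
  have h := sum_mul i i
  rw [α_self] at h
  have e : ∑ l, α i l * α l i = ∑ l, α i l := by
    apply Finset.sum_congr rfl
    intro l _
    rw [α_symm l i, α_sq]
  rw [e] at h
  rw [h]
  norm_num

noncomputable def A : Matrix (Fin 416) (Fin 416) ℝ := Matrix.of α

noncomputable def J : Matrix (Fin 416) (Fin 416) ℝ := Matrix.of fun _ _ => 1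

/-- the orthogonal projection onto the eigenspace of the eigenvalue 20 -/
noncomputable def M : Matrix (Fin 416) (Fin 416) ℝ :=
  (1 / 24 : ℝ) • (A + (4 : ℝ) • (1 : Matrix (Fin 416) (Fin 416) ℝ) - (1 / 4 : ℝ) • J)

theorem M_apply (i j : Fin 416) :
    M i j = (α i j + (if i = j then 4 else 0) - 1 / 4) / 24 := by
  unfold M A J
  simp [Matrix.one_apply]
  by_cases h : i = j <;> simp [h] <;> ring

theorem AA : A * A = (80 : ℝ) • (1 : Matrix (Fin 416) (Fin 416) ℝ) + (16 : ℝ) • A + (20 : ℝ) • J := by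
  ext i k
  rw [Matrix.mul_apply]
  simp only [A, J, Matrix.of_apply, Matrix.add_apply, Matrix.smul_apply, Matrix.one_apply, smul_eq_mul]
  rw [sum_mul]
  by_cases h : i = k <;> simp [h]

theorem AJ : A * J = (100 : ℝ) • J := by
  ext i k
  rw [Matrix.mul_apply]
  simp only [A, J, Matrix.of_apply, Matrix.smul_apply, smul_eq_mul, mul_one]
  rw [sum_row]

theorem JA : J * A = (100 : ℝ) • J := by
  ext i k
  rw [Matrix.mul_apply]
  simp only [A, J, Matrix.of_apply, Matrix.smul_apply, smul_eq_mul, mul_one, one_mul]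
  have : ∑ l, α l k = ∑ l, α k l := Finset.sum_congr rfl (fun l _ => α_symm l k)
  rw [this, sum_row]

theorem JJ : J * J = (416 : ℝ) • J := by
  ext i k
  rw [Matrix.mul_apply]
  simp [J]

theorem MM : M * M = M := by
  unfold M
  simp only [Matrix.smul_mul, Matrix.mul_smul, Matrix.add_mul, Matrix.mul_add, Matrix.sub_mul,
    Matrix.mul_sub, Matrix.one_mul, Matrix.mul_one, AA, AJ, JA, JJ]
  module

theorem M_symm (i j : Fin 416) : M i j = M j i := by
  rw [M_apply, M_apply, α_symm]
  by_cases h : i = j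
  · subst h; rfl
  · simp [h, Ne.symm h]

theorem trace_M : Matrix.trace M = 65 := by
  unfold Matrix.trace
  simp only [Matrix.diag_apply, M_apply, α_self]
  simp
  norm_num

noncomputable def T : V →ₗ[ℝ] V := Matrix.toEuclideanLin M

theorem T_apply (x : V) : T x = WithLp.toLp 2 (M *ᵥ WithLp.ofLp x) := by
  unfold T
  exact Matrix.toLpLin_apply 2 2 M x

theorem T_T (x : V) : T (T x) = T x := by
  simp only [T_apply, Matrix.mulVec_mulVec, MM]

theorem T_idem : IsIdempotentElem T := by
  unfold IsIdempotentElem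
  ext1 x
  exact T_T x

theorem finrank_W : finrank ℝ (LinearMap.range T) = 65 := by
  have h := (LinearMap.IsIdempotentElem.isProj_range T T_idem).trace
  have h2 : LinearMap.trace ℝ V T = Matrix.trace M := by
    rw [LinearMap.trace_eq_matrix_trace ℝ (EuclideanSpace.basisFun (Fin 416) ℝ).toBasis]
    congr 1
    unfold T
    rw [Matrix.toEuclideanLin_eq_toLin_orthonormal, LinearMap.toMatrix_toLin]
  rw [h2, trace_M] at h
  have : ((finrank ℝ (LinearMap.range T) : ℕ) : ℝ) = ((65 : ℕ) : ℝ) := by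
    rw [← h]; norm_num
  exact_mod_cast this

theorem inner_toLp (f g : Fin 416 → ℝ) :
    inner ℝ (WithLp.toLp 2 f : V) (WithLp.toLp 2 g : V) = ∑ k, f k * g k := by
  simp [PiLp.inner_apply, mul_comm]

/-- the vector attached to the vertex `i` -/
noncomputable def v (i : Fin 416) : V := WithLp.toLp 2 (fun k => M k i)

theorem v_mem (i : Fin 416) : v i ∈ LinearMap.range T := by
  refine ⟨WithLp.toLp 2 (fun k => if k = i then 1 else 0), ?_⟩
  rw [T_apply]
  unfold v
  congr 1
  ext k
  simp [Matrix.mulVec, dotProduct]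

theorem inner_v (i j : Fin 416) : inner ℝ (v i) (v j) = M i j := by
  unfold v
  rw [inner_toLp]
  have h := congrFun (congrFun MM i) j
  rw [Matrix.mul_apply] at h
  rw [← h]
  apply Finset.sum_congr rfl
  intro k _
  rw [M_symm k i]

/-- the indicator of the interval `[a, a + 32)` -/
noncomputable def indR (a : ℕ) (k : Fin 416) : ℝ := if a ≤ (k : ℕ) ∧ (k : ℕ) < a + 32 then 1 else 0

theorem sum_indR (a : ℕ) (ha : a + 32 ≤ 416) (F : ℕ → ℝ) :
    ∑ j : Fin 416, F j * indR a j = ∑ t ∈ range 32, F (a + t) := by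
  have h1 : ∑ j : Fin 416, F j * indR a j
      = ∑ j ∈ range 416, F j * (if a ≤ j ∧ j < a + 32 then 1 else 0) := by
    rw [Finset.sum_range]
    rfl
  rw [h1]
  have h2 : ∑ j ∈ range 416, F j * (if a ≤ j ∧ j < a + 32 then (1:ℝ) else 0)
      = ∑ j ∈ Finset.Ico a (a + 32), F j := by
    simp only [mul_ite, mul_one, mul_zero]
    rw [← Finset.sum_filter]
    apply Finset.sum_congr _ (fun _ _ => rfl)
    ext j
    simp only [Finset.mem_filter, Finset.mem_range, Finset.mem_Ico]
    omega
  rw [h2, Finset.sum_Ico_eq_sum_range]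
  simp

theorem cnt_succ (i a m : ℕ) :
    cnt i a (m + 1) = Bool.rec (cnt i a m) (Nat.succ (cnt i a m)) (adjB i (Nat.add a m)) := rfl

theorem cnt_eq (i a m : ℕ) :
    ((cnt i a m : ℕ) : ℝ) = ∑ t ∈ range m, (if adjB i (a + t) = true then 1 else 0) := by
  induction m with
  | zero => simp [cnt]
  | succ m ih =>
    rw [cnt_succ, Finset.sum_range_succ, ← ih]
    have e : Nat.add a m = a + m := rfl
    rw [e]
    cases adjB i (a + m) <;> simp

theorem sum_α_indR (k : Fin 416) (a : ℕ) (ha : a + 32 ≤ 416) :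
    ∑ j : Fin 416, α k j * indR a j = (cnt k a 32 : ℕ) := by
  have := sum_indR a ha (fun j => if adjB k j = true then 1 else 0)
  rw [cnt_eq]
  rw [← this]
  rfl

theorem ind_cast (a : ℕ) (k : Fin 416) : ((ind a k : ℕ) : ℝ) = indR a k := by
  unfold ind indR
  by_cases h1 : a ≤ (k : ℕ)
  · have hb : Nat.ble a k = true := Nat.ble_eq.mpr h1
    rw [hb]
    by_cases h2 : (k : ℕ) < a + 32
    · have hb2 : Nat.blt k (Nat.add a 32) = true := Nat.ble_eq.mpr h2
      rw [hb2]
      simp [h1, h2]
    · have hb2 : Nat.blt k (Nat.add a 32) = false := by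
        cases hb3 : Nat.blt k (Nat.add a 32) with
        | false => rfl
        | true => exact absurd (Nat.le_of_ble_eq_true hb3) h2
      rw [hb2]
      simp [h2]
  · have hb : Nat.ble a k = false := by
      cases hb3 : Nat.ble a k with
      | false => rfl
      | true => exact absurd (Nat.le_of_ble_eq_true hb3) h1
    rw [hb]
    simp [h1]

theorem eig_spec (k : Fin 416) :
    (cnt k 320 32 + 20 * ind 384 k = cnt k 384 32 + 20 * ind 320 k) ∧
    (cnt k 320 32 + 20 * ind 352 k = cnt k 352 32 + 20 * ind 320 k) := by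
  have h := allBelow_spec check_eig k k.2
  unfold eigOK at h
  cases h1 : Nat.beq (Nat.add (cnt k 320 32) (Nat.mul 20 (ind 384 k)))
      (Nat.add (cnt k 384 32) (Nat.mul 20 (ind 320 k))) with
  | false => rw [h1] at h; exact absurd h (by simp)
  | true =>
    rw [h1] at h
    exact ⟨Nat.eq_of_beq_eq_true h1, Nat.eq_of_beq_eq_true h⟩

/-- eigenfunctions of the graph for the eigenvalue 20 -/
noncomputable def g (b : ℕ) (k : Fin 416) : ℝ := indR 320 k - indR b k

theorem g_eig (b : ℕ) (hb : b = 384 ∨ b = 352) (k : Fin 416) :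
    ∑ j, α k j * g b j = 20 * g b k := by
  have hb' : b + 32 ≤ 416 := by omega
  unfold g
  simp only [mul_sub]
  rw [Finset.sum_sub_distrib, sum_α_indR k 320 (by norm_num), sum_α_indR k b hb']
  have h := eig_spec k
  rcases hb with rfl | rfl
  · have h1 : (((cnt k 320 32 + 20 * ind 384 k : ℕ)) : ℝ) = ((cnt k 384 32 + 20 * ind 320 k : ℕ) : ℝ) := by
      rw [h.1]
    push_cast at h1
    rw [ind_cast, ind_cast] at h1
    linarith
  · have h1 : (((cnt k 320 32 + 20 * ind 352 k : ℕ)) : ℝ) = ((cnt k 352 32 + 20 * ind 320 k : ℕ) : ℝ) := by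
      rw [h.2]
    push_cast at h1
    rw [ind_cast, ind_cast] at h1
    linarith

theorem sum_g (b : ℕ) (hb : b + 32 ≤ 416) : ∑ j, g b j = 0 := by
  unfold g
  rw [Finset.sum_sub_distrib]
  have h1 := sum_indR 320 (by norm_num) (fun _ => 1)
  have h2 := sum_indR b hb (fun _ => 1)
  simp only [one_mul] at h1 h2
  rw [h1, h2]
  simp

theorem M_g (b : ℕ) (hb : b = 384 ∨ b = 352) : M *ᵥ g b = g b := by
  ext k
  simp only [Matrix.mulVec, dotProduct, M_apply]
  have e : ∀ j, (α k j + (if k = j then 4 else 0) - 1 / 4) / 24 * g b j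
      = (α k j * g b j + (if k = j then 4 * g b j else 0) - 1 / 4 * g b j) / 24 := by
    intro j
    by_cases h : k = j <;> simp [h] <;> ring
  simp only [e]
  rw [← Finset.sum_div, Finset.sum_sub_distrib, Finset.sum_add_distrib, g_eig b hb k,
    ← Finset.mul_sum, sum_g b (by omega)]
  simp
  ring

/-- the vector of the eigenfunction `g b` -/
noncomputable def f (b : ℕ) : V := WithLp.toLp 2 (g b)

theorem f_mem (b : ℕ) (hb : b = 384 ∨ b = 352) : f b ∈ LinearMap.range T := by
  refine ⟨f b, ?_⟩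
  rw [T_apply]
  unfold f
  simp only [M_g b hb]

theorem inner_f_v (b : ℕ) (hb : b = 384 ∨ b = 352) (x : Fin 416) :
    inner ℝ (f b) (v x) = g b x := by
  unfold f v
  rw [inner_toLp]
  have h := congrFun (M_g b hb) x
  rw [← h]
  simp only [Matrix.mulVec, dotProduct]
  apply Finset.sum_congr rfl
  intro k _
  rw [M_symm k x]
  ring

theorem g_zero (b : ℕ) (hb : b = 384 ∨ b = 352) (x : Fin 416) (hx : (x : ℕ) < 320) : g b x = 0 := by
  unfold g indR
  have h1 : ¬ (320 ≤ (x : ℕ) ∧ (x : ℕ) < 320 + 32) := by omega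
  have h2 : ¬ (b ≤ (x : ℕ) ∧ (x : ℕ) < b + 32) := by omega
  simp [h1, h2]

noncomputable def S : Submodule ℝ V := Submodule.span ℝ (Set.range ![f 384, f 352])

/-- the eigenspace intersected with the orthogonal complement of the two eigenfunctions -/
noncomputable def K : Submodule ℝ V := Sᗮ ⊓ LinearMap.range T

theorem f_apply (b : ℕ) (k : Fin 416) : (f b).ofLp k = g b k := rfl

theorem li_f : LinearIndependent ℝ ![f 384, f 352] := by
  rw [LinearIndependent.pair_iff]
  intro s t h
  have h1 := congrArg (fun x : V => x.ofLp ⟨384, by norm_num⟩) h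
  have h2 := congrArg (fun x : V => x.ofLp ⟨352, by norm_num⟩) h
  simp only [PiLp.add_apply, PiLp.smul_apply, PiLp.zero_apply, smul_eq_mul, f_apply] at h1 h2
  have g1 : g 384 ⟨384, by norm_num⟩ = -1 := by
    unfold g indR; norm_num
  have g2 : g 352 ⟨384, by norm_num⟩ = 0 := by
    unfold g indR; norm_num
  have g3 : g 384 ⟨352, by norm_num⟩ = 0 := by
    unfold g indR; norm_num
  have g4 : g 352 ⟨352, by norm_num⟩ = -1 := by
    unfold g indR; norm_num
  rw [g1, g2] at h1
  rw [g3, g4] at h2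
  constructor <;> linarith

theorem finrank_S : finrank ℝ S = 2 := by
  unfold S
  rw [finrank_span_eq_card li_f]
  simp

theorem S_le : S ≤ LinearMap.range T := by
  unfold S
  rw [Submodule.span_le]
  rintro _ ⟨i, rfl⟩
  fin_cases i
  · exact f_mem 384 (Or.inl rfl)
  · exact f_mem 352 (Or.inr rfl)

theorem finrank_K : finrank ℝ K = 63 := by
  have h := Submodule.finrank_add_inf_finrank_orthogonal S_le
  rw [finrank_S, finrank_W] at h
  unfold K
  omega

theorem v_mem_K (x : Fin 416) (hx : (x : ℕ) < 320) : v x ∈ K := by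
  refine Submodule.mem_inf.mpr ⟨?_, v_mem x⟩
  rw [Submodule.mem_orthogonal]
  intro u hu
  unfold S at hu
  induction hu using Submodule.span_induction with
  | mem u hu =>
    obtain ⟨i, rfl⟩ := hu
    fin_cases i
    · simp only [Matrix.cons_val_zero]
      have := inner_f_v 384 (Or.inl rfl) x
      rw [g_zero 384 (Or.inl rfl) x hx] at this
      exact this
    · simp only [Fin.mk_one, Matrix.cons_val_one]
      have := inner_f_v 352 (Or.inr rfl) x
      rw [g_zero 352 (Or.inr rfl) x hx] at this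
      exact this
  | zero => simp
  | add a b _ _ ha hb => rw [inner_add_left, ha, hb, add_zero]
  | smul c a _ ha => rw [inner_smul_left, ha, mul_zero]

/-- the removed vertex whose image is pushed outwards -/
def z : Fin 416 := ⟨320, by norm_num⟩

/-- its orthogonal projection to `K` -/
noncomputable def y0 : V := ((K.orthogonalProjectionOnto (v z) : K) : V)

theorem y0_mem : y0 ∈ K := (K.orthogonalProjectionOnto (v z)).2

theorem inner_y0 (x : Fin 416) (hx : (x : ℕ) < 320) : inner ℝ y0 (v x) = M z x := by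
  have h := Submodule.inner_orthogonalProjectionOnto_eq_of_mem_right (K := K) ⟨v x, v_mem_K x hx⟩ (v z)
  rw [← inner_v]
  exact h

theorem M_self (x : Fin 416) : M x x = 5 / 32 := by
  rw [M_apply, α_self]
  norm_num

theorem M_ne (x x' : Fin 416) (h : x ≠ x') : M x x' = (α x x' - 1 / 4) / 24 := by
  rw [M_apply]
  simp [h]

theorem z_ne (x : Fin 416) (hx : (x : ℕ) < 320) : z ≠ x := by
  intro h
  rw [← h] at hx
  simp [z] at hx

theorem α_zero_or_one (i j : Fin 416) : α i j = 0 ∨ α i j = 1 := by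
  unfold α
  by_cases h : adjB i j = true <;> simp [h]

theorem y0_ne : 0 < ‖y0‖ ^ 2 := by
  have h0 : ((0 : Fin 416) : ℕ) < 320 := by norm_num
  have h := inner_y0 0 h0
  rw [M_ne z 0 (z_ne 0 h0)] at h
  have hy : y0 ≠ 0 := by
    intro hy
    rw [hy, inner_zero_left] at h
    rcases α_zero_or_one z 0 with h1 | h1 <;> rw [h1] at h <;> norm_num at h
  have := norm_pos_iff.mpr hy
  positivity

theorem exists_s (t : ℝ) (ht : 0 < t) : ∃ s : ℝ, 0 < s ∧ t * s ^ 2 + s / 48 = 17 / 96 := by
  set D : ℝ := (1 / 48) ^ 2 + 4 * t * (17 / 96) with hD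
  have hD0 : 0 ≤ D := by positivity
  set r := Real.sqrt D with hr
  have hr2 : r ^ 2 = D := Real.sq_sqrt hD0
  have hr0 : 0 ≤ r := Real.sqrt_nonneg D
  have hr1 : 1 / 48 < r := by
    by_contra hcon
    push Not at hcon
    have : r ^ 2 ≤ (1 / 48) ^ 2 := by
      apply pow_le_pow_left₀ hr0 hcon
    rw [hr2, hD] at this
    have : 0 < 4 * t * (17 / 96) := by positivity
    linarith
  refine ⟨(r - 1 / 48) / (2 * t), by apply div_pos <;> linarith, ?_⟩
  field_simp
  nlinarith [hr2, hD]

theorem inner_v_y0 (x : Fin 416) (hx : (x : ℕ) < 320) :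
    inner ℝ (v x) y0 = (α z x - 1 / 4) / 24 := by
  rw [real_inner_comm, inner_y0 x hx, M_ne z x (z_ne x hx)]

theorem norm_v (x : Fin 416) : ‖v x‖ ^ 2 = 5 / 32 := by
  rw [← real_inner_self_eq_norm_sq, inner_v, M_self]

theorem dist_vv (x x' : Fin 416) (h : x ≠ x') :
    ‖v x - v x'‖ ^ 2 = 5 / 16 - (α x x' - 1 / 4) / 12 := by
  rw [norm_sub_sq_real, norm_v, norm_v, inner_v, M_ne x x' h]
  ring

/-- the points in the flat `K` -/
theorem exists_points_K : ∃ u : Fin 321 → V, (∀ a, u a ∈ K) ∧
    (∀ a b : Fin 321, ‖u a - u b‖ ^ 2 ≤ 1 / 3) ∧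
    (∀ a b : Fin 321, a ≠ b → adjB (a : ℕ) (b : ℕ) = false → ‖u a - u b‖ ^ 2 = 1 / 3) := by
  obtain ⟨s, hs, hs2⟩ := exists_s _ y0_ne
  let ι : Fin 321 → Fin 416 := fun i => ⟨i, by omega⟩
  let u : Fin 321 → V := fun i => if (i : ℕ) < 320 then v (ι i) else s • y0
  have hu1 : ∀ i : Fin 321, (i : ℕ) < 320 → u i = v (ι i) := fun i hi => if_pos hi
  have hu2 : ∀ i : Fin 321, ¬ (i : ℕ) < 320 → u i = s • y0 := fun i hi => if_neg hi
  have hι : ∀ i : Fin 321, ¬ (i : ℕ) < 320 → ι i = z := by
    intro i hi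
    apply Fin.ext
    show (i : ℕ) = 320
    omega
  have hιne : ∀ a b : Fin 321, a ≠ b → ι a ≠ ι b := by
    intro a b hab h
    apply hab
    apply Fin.ext
    have := congrArg (fun t : Fin 416 => (t : ℕ)) h
    exact this
  -- distance from a vertex of the flat to the pushed point
  have hd : ∀ x : Fin 416, (x : ℕ) < 320 → ‖v x - s • y0‖ ^ 2
      = 5 / 32 - 2 * (s * ((α z x - 1 / 4) / 24)) + s ^ 2 * ‖y0‖ ^ 2 := by
    intro x hx
    rw [norm_sub_sq_real, norm_v, inner_smul_right, inner_v_y0 x hx, norm_smul, mul_pow,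
      Real.norm_eq_abs, sq_abs]
  refine ⟨u, ?_, ?_, ?_⟩
  · intro a
    by_cases ha : (a : ℕ) < 320
    · rw [hu1 a ha]
      exact v_mem_K _ ha
    · rw [hu2 a ha]
      exact K.smul_mem s y0_mem
  · intro a b
    by_cases hab : a = b
    · subst hab
      simp
    by_cases ha : (a : ℕ) < 320 <;> by_cases hb : (b : ℕ) < 320
    · rw [hu1 a ha, hu1 b hb, dist_vv _ _ (hιne a b hab)]
      rcases α_zero_or_one (ι a) (ι b) with h | h <;> rw [h] <;> norm_num
    · rw [hu1 a ha, hu2 b hb, hd _ ha]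
      rcases α_zero_or_one z (ι a) with h | h <;> rw [h]
      · nlinarith
      · nlinarith
    · rw [hu2 a ha, hu1 b hb, norm_sub_rev, hd _ hb]
      rcases α_zero_or_one z (ι b) with h | h <;> rw [h]
      · nlinarith
      · nlinarith
    · exact absurd (Fin.ext (by omega) : a = b) hab
  · intro a b hab hadj
    have hα : ∀ c d : Fin 321, adjB (c : ℕ) (d : ℕ) = false → α (ι c) (ι d) = 0 := by
      intro c d h
      unfold α
      have e : adjB (ι c : ℕ) (ι d : ℕ) = false := h
      rw [e]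
      simp
    by_cases ha : (a : ℕ) < 320 <;> by_cases hb : (b : ℕ) < 320
    · rw [hu1 a ha, hu1 b hb, dist_vv _ _ (hιne a b hab), hα a b hadj]
      norm_num
    · rw [hu1 a ha, hu2 b hb, hd _ ha]
      have h0 : α z (ι a) = 0 := by
        rw [← hι b hb, α_symm]
        exact hα a b hadj
      rw [h0]
      nlinarith
    · rw [hu2 a ha, hu1 b hb, norm_sub_rev, hd _ hb]
      have h0 : α z (ι b) = 0 := by
        rw [← hι a ha]
        exact hα a b hadj
      rw [h0]
      nlinarith
    · exact absurd (Fin.ext (by omega) : a = b) hab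

/-- the points in `ℝ^63` -/
theorem exists_points : ∃ u : Fin 321 → EuclideanSpace ℝ (Fin 63),
    (∀ a b : Fin 321, ‖u a - u b‖ ^ 2 ≤ 1 / 3) ∧
    (∀ a b : Fin 321, a ≠ b → adjB (a : ℕ) (b : ℕ) = false → ‖u a - u b‖ ^ 2 = 1 / 3) := by
  obtain ⟨u, hK, h1, h2⟩ := exists_points_K
  let Φ := ((stdOrthonormalBasis ℝ K).reindex (finCongr finrank_K)).repr
  have hn : ∀ a b, ‖Φ ⟨u a, hK a⟩ - Φ ⟨u b, hK b⟩‖ = ‖u a - u b‖ := by
    intro a b
    rw [← map_sub, LinearIsometryEquiv.norm_map]
    rfl
  refine ⟨fun a => Φ ⟨u a, hK a⟩, ?_, ?_⟩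
  · intro a b
    simp only [hn]
    exact h1 a b
  · intro a b hab had
    simp only [hn]
    exact h2 a b hab had

end Vale.Agent.Lib.P052
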